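import Vale.Agent.H9.CK.Semi

/-!
# P322 (Courtade-Kumar): the deterministic inequality (D)

`Jf r = ∑_k r^(2k+2) / ((2k+1)(2k+2))`, `qf r = ∑_k 2 k r^(2k+2) / ((2k+1)(2k+2))`.
-/

open Real

namespace CK.D24

open CK

/-- `J(r) = r A(r) + log(1-r^2)/2` -/
noncomputable def Jf (r : ℝ) : ℝ := r * A r + log (1 - r ^ 2) / 2

/-- `q(r) = -r A(r) - log(1-r^2)` -/
noncomputable def qf (r : ℝ) : ℝ := -(r * A r) - log (1 - r ^ 2)

/-- the weights `1/((2k+1)(2k+2))` -/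
noncomputable def wt (k : ℕ) : ℝ := 1 / ((2 * k + 1) * (2 * k + 2))

theorem wt_pos (k : ℕ) : 0 < wt k := by unfold wt; positivity

theorem hasSum_rA {r : ℝ} (hr : |r| < 1) :
    HasSum (fun k : ℕ => r ^ (2 * k + 2) / (2 * k + 1)) (r * A r) := by
  have h := (Real.hasSum_log_sub_log_of_abs_lt_one hr).mul_left (r / 2)
  have e : r / 2 * (log (1 + r) - log (1 - r)) = r * A r := by unfold A; ring
  rw [e] at h
  refine h.congr_fun ?_ |> fun h => h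
  intro k
  field_simp
  ring

theorem hasSum_log_sq {r : ℝ} (hr : |r| < 1) :
    HasSum (fun k : ℕ => r ^ (2 * k + 2) / (k + 1)) (-log (1 - r ^ 2)) := by
  have hr2 : |r ^ 2| < 1 := by
    rw [abs_pow, sq_lt_one_iff₀ (abs_nonneg r)]
    exact hr
  have h := Real.hasSum_pow_div_log_of_abs_lt_one hr2
  refine h.congr_fun ?_ |> fun h => h
  intro k
  rw [← pow_mul, show 2 * (k + 1) = 2 * k + 2 by ring]

theorem hasSum_Jf {r : ℝ} (hr : |r| < 1) :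
    HasSum (fun k : ℕ => wt k * r ^ (2 * k + 2)) (Jf r) := by
  have h := (hasSum_rA hr).sub ((hasSum_log_sq hr).mul_left (1 / 2))
  have e : r * A r - 1 / 2 * -log (1 - r ^ 2) = Jf r := by unfold Jf; ring
  rw [e] at h
  refine h.congr_fun ?_ |> fun h => h
  intro k
  unfold wt
  field_simp
  ring

theorem hasSum_qf {r : ℝ} (hr : |r| < 1) :
    HasSum (fun k : ℕ => 2 * k * wt k * r ^ (2 * k + 2)) (qf r) := by
  have h := (hasSum_log_sq hr).sub (hasSum_rA hr)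
  have e : -log (1 - r ^ 2) - r * A r = qf r := by unfold qf; ring
  rw [e] at h
  refine h.congr_fun ?_ |> fun h => h
  intro k
  unfold wt
  field_simp
  ring

/-- A convex sequence which exceeds `P` at `N ≥ 1` but not at `N-1` stays above. -/
theorem convex_seq_ge {t : ℕ → ℝ} (hconv : ∀ n, t (n + 1) - t n ≤ t (n + 2) - t (n + 1))
    {P : ℝ} {N : ℕ} (h0 : t N ≤ P) (h1 : P < t (N + 1)) : ∀ n, N + 1 ≤ n → P ≤ t n := by
  have hinc : ∀ n, N ≤ n → 0 < t (n + 1) - t n := by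
    intro n hn
    induction n, hn using Nat.le_induction with
    | base => linarith
    | succ n hn ih => exact lt_of_lt_of_le ih (hconv n)
  intro n hn
  induction n, hn using Nat.le_induction with
  | base => linarith
  | succ n hn ih => have := hinc n (by omega); linarith

/-- If the terms change sign once (from `≤ 0` to `≥ 0`) and the sum is `≥ 0`, then the sum
weighted with `k` is `≥ 0`. -/
theorem sum_sign {v : ℕ → ℝ} {SJ SQ : ℝ} (sJ : HasSum v SJ)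
    (sQ : HasSum (fun k : ℕ => (k : ℝ) * v k) SQ) (hJ : 0 ≤ SJ)
    (hs : (∃ N, (∀ k, k < N → v k ≤ 0) ∧ (∀ k, N ≤ k → 0 ≤ v k)) ∨ (∀ k, v k ≤ 0)) : 0 ≤ SQ := by
  rcases hs with ⟨N, h1, h2⟩ | hneg
  · have hterm : ∀ k : ℕ, (N : ℝ) * v k ≤ (k : ℝ) * v k := by
      intro k
      rcases lt_or_ge k N with hk | hk
      · have h3 : (k : ℝ) ≤ N := by exact_mod_cast hk.le
        exact mul_le_mul_of_nonpos_right h3 (h1 k hk)
      · have h3 : (N : ℝ) ≤ k := by exact_mod_cast hk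
        exact mul_le_mul_of_nonneg_right h3 (h2 k hk)
    have hle := hasSum_le hterm (sJ.mul_left (N : ℝ)) sQ
    have : 0 ≤ (N : ℝ) * SJ := by positivity
    linarith
  · have hn : ∀ k, 0 ≤ -v k := fun k => by linarith [hneg k]
    have hs := sJ.neg
    have hz : -SJ = 0 := le_antisymm (by linarith) (hs.nonneg hn)
    rw [hz] at hs
    have hall := (hasSum_zero_iff_of_nonneg hn).1 hs
    have h0 : (fun k : ℕ => (k : ℝ) * v k) = fun _ => 0 := by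
      funext k
      have h1 := congrFun hall k
      simp only [Pi.zero_apply, neg_eq_zero] at h1
      rw [h1, mul_zero]
    rw [h0] at sQ
    exact (sQ.unique hasSum_zero).ge

theorem bern_aux {m : ℝ} (hm0 : 0 ≤ m) (hm1 : m < 1) (j : ℕ) :
    1 + 3 * m ^ 2 ≤ ((1 + m) ^ (2 * (j + 1) + 1) + (1 - m) ^ (2 * (j + 1) + 1)) / 2 ∧
      0 ≤ (1 + m) ^ (2 * (j + 1) + 1) - (1 - m) ^ (2 * (j + 1) + 1) := by
  induction j with
  | zero =>
    have z1 : (1 + m) ^ (2 * (0 + 1) + 1) = 1 + 3 * m + 3 * m ^ 2 + m ^ 3 := by ring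
    have z2 : (1 - m) ^ (2 * (0 + 1) + 1) = 1 - 3 * m + 3 * m ^ 2 - m ^ 3 := by ring
    rw [z1, z2]
    have z3 : 0 ≤ m ^ 3 := by positivity
    constructor <;> linarith
  | succ j ih =>
    obtain ⟨ih1, ih2⟩ := ih
    have ea : (1 + m) ^ (2 * (j + 1 + 1) + 1) =
      (1 + m) ^ (2 * (j + 1) + 1) * (1 + m) ^ 2 := by ring
    have eb : (1 - m) ^ (2 * (j + 1 + 1) + 1) =
      (1 - m) ^ (2 * (j + 1) + 1) * (1 - m) ^ 2 := by ring
    rw [ea, eb]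
    generalize (1 + m) ^ (2 * (j + 1) + 1) = X at *
    generalize (1 - m) ^ (2 * (j + 1) + 1) = Y at *
    have hs : 0 ≤ X + Y := by nlinarith [sq_nonneg m]
    constructor
    · nlinarith [mul_nonneg hm0 ih2, mul_nonneg (sq_nonneg m) hs]
    · nlinarith [mul_nonneg hm0 hs, mul_nonneg (sq_nonneg m) ih2]

theorem hpw {m e : ℝ} (h1m : 0 < 1 - m) (h1p : 0 < 1 + m) (k : ℕ) :
    ((1 + m) * (e / (1 + m)) ^ (2 * k + 2) + (1 - m) * (e / (1 - m)) ^ (2 * k + 2)) / 2 =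
      (e / ((1 - m) * (1 + m))) ^ (2 * k + 2) * ((1 - m) * (1 + m)) *
        (((1 + m) ^ (2 * k + 1) + (1 - m) ^ (2 * k + 1)) / 2) := by
  rw [div_pow, div_pow, div_pow, mul_pow]
  have e2 : (1 + m) ^ (2 * k + 2) = (1 + m) ^ (2 * k + 1) * (1 + m) := by ring
  have e3 : (1 - m) ^ (2 * k + 2) = (1 - m) ^ (2 * k + 1) * (1 - m) := by ring
  rw [e2, e3]
  field_simp
  ring

/-- the difference sequence -/
noncomputable def dd (m e P ρ : ℝ) (k : ℕ) : ℝ :=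
  ((1 + m) * (e / (1 + m)) ^ (2 * k + 2) + (1 - m) * (e / (1 - m)) ^ (2 * k + 2)) / 2 -
    P * ρ ^ (2 * k + 2)

theorem small_rho {m e P ρ : ℝ} (hm0 : 0 ≤ m) (he0 : 0 ≤ e) (hm1 : m < 1)
    (hP0 : 0 < P) (hP2 : P ≤ (1 - m ^ 2) * (1 + 3 * m ^ 2)) (hρ0 : 0 ≤ ρ)
    (hcase : ρ ≤ e / (1 - m ^ 2)) (k : ℕ) (hk : 0 < k) : 0 ≤ dd m e P ρ k := by
  have h1m : 0 < 1 - m := by linarith
  have h1p : 0 < 1 + m := by linarith
  have hPm : 0 < 1 - m ^ 2 := by nlinarith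
  have h1 : P * ρ ^ (2 * k + 2) ≤ P * (e / (1 - m ^ 2)) ^ (2 * k + 2) := by gcongr
  have h2 : P * (e / (1 - m ^ 2)) ^ (2 * k + 2) ≤
      ((1 + m) * (e / (1 + m)) ^ (2 * k + 2) + (1 - m) * (e / (1 - m)) ^ (2 * k + 2)) / 2 := by
    have e1 : (e / (1 - m ^ 2)) = e / ((1 - m) * (1 + m)) := by ring_nf
    have hbern : 1 + 3 * m ^ 2 ≤ ((1 + m) ^ (2 * k + 1) + (1 - m) ^ (2 * k + 1)) / 2 := by
      obtain ⟨j, rfl⟩ : ∃ j, k = j + 1 := ⟨k - 1, by omega⟩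
      exact (bern_aux hm0 hm1 j).1
    rw [hpw h1m h1p, e1]
    have hX : 0 ≤ (e / ((1 - m) * (1 + m))) ^ (2 * k + 2) := by positivity
    have hP3 : P ≤ ((1 - m) * (1 + m)) *
        (((1 + m) ^ (2 * k + 1) + (1 - m) ^ (2 * k + 1)) / 2) := by
      calc P ≤ (1 - m ^ 2) * (1 + 3 * m ^ 2) := hP2
        _ ≤ (1 - m ^ 2) * (((1 + m) ^ (2 * k + 1) + (1 - m) ^ (2 * k + 1)) / 2) :=
            mul_le_mul_of_nonneg_left hbern hPm.le
        _ = _ := by ring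
    calc P * (e / ((1 - m) * (1 + m))) ^ (2 * k + 2)
        ≤ (((1 - m) * (1 + m)) * (((1 + m) ^ (2 * k + 1) + (1 - m) ^ (2 * k + 1)) / 2)) *
          (e / ((1 - m) * (1 + m))) ^ (2 * k + 2) := mul_le_mul_of_nonneg_right hP3 hX
      _ = _ := by ring
  unfold dd
  linarith

/-- the ratio sequence -/
noncomputable def tt (m x y : ℝ) (k : ℕ) : ℝ := ((1 + m) * x ^ (k + 1) + (1 - m) * y ^ (k + 1)) / 2

theorem tt_conv {m x y : ℝ} (h1m : 0 < 1 - m) (h1p : 0 < 1 + m) (hx0 : 0 ≤ x) (hy0 : 0 ≤ y)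
    (n : ℕ) : tt m x y (n + 1) - tt m x y n ≤ tt m x y (n + 2) - tt m x y (n + 1) := by
  have e1 : tt m x y (n + 2) - tt m x y (n + 1) - (tt m x y (n + 1) - tt m x y n) =
      ((1 + m) * (x ^ (n + 1) * (x - 1) ^ 2) + (1 - m) * (y ^ (n + 1) * (y - 1) ^ 2)) / 2 := by
    unfold tt; ring
  have : 0 ≤ ((1 + m) * (x ^ (n + 1) * (x - 1) ^ 2) +
      (1 - m) * (y ^ (n + 1) * (y - 1) ^ 2)) / 2 := by positivity
  linarith

theorem dd_eq {m e P ρ : ℝ} (hρ : 0 < ρ) (k : ℕ) :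
    dd m e P ρ k = ρ ^ (2 * k + 2) *
      (tt m ((e / (1 + m) / ρ) ^ 2) ((e / (1 - m) / ρ) ^ 2) k - P) := by
  have e1 : ((e / (1 + m) / ρ) ^ 2) ^ (k + 1) = (e / (1 + m)) ^ (2 * k + 2) / ρ ^ (2 * k + 2) := by
    rw [← pow_mul, div_pow, show 2 * (k + 1) = 2 * k + 2 by ring]
  have e2 : ((e / (1 - m) / ρ) ^ 2) ^ (k + 1) = (e / (1 - m)) ^ (2 * k + 2) / ρ ^ (2 * k + 2) := by
    rw [← pow_mul, div_pow, show 2 * (k + 1) = 2 * k + 2 by ring]
  unfold dd tt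
  rw [e1, e2]
  generalize (e / (1 + m)) ^ (2 * k + 2) = X
  generalize (e / (1 - m)) ^ (2 * k + 2) = Y
  field_simp

theorem tt_zero {m e ρ : ℝ} (h1m : 0 < 1 - m) (h1p : 0 < 1 + m) (hρ : 0 < ρ) :
    tt m ((e / (1 + m) / ρ) ^ 2) ((e / (1 - m) / ρ) ^ 2) 0 = e ^ 2 / (1 - m ^ 2) / ρ ^ 2 := by
  have e2 : (1 - m ^ 2) = (1 - m) * (1 + m) := by ring
  have e3 : (e / (1 + m) / ρ) ^ 2 = e ^ 2 / ((1 + m) ^ 2 * ρ ^ 2) := by
    rw [div_div, div_pow, mul_pow]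
  have e4 : (e / (1 - m) / ρ) ^ 2 = e ^ 2 / ((1 - m) ^ 2 * ρ ^ 2) := by
    rw [div_div, div_pow, mul_pow]
  unfold tt
  rw [e3, e4, e2, zero_add, pow_one, pow_one, div_div, eq_div_iff (by positivity)]
  field_simp
  ring

theorem tt_zero_le {m e P ρ : ℝ} (hm0 : 0 ≤ m) (he0 : 0 ≤ e) (hm1 : m < 1)
    (hP1 : 1 - m ^ 2 ≤ P) (hρ : 0 < ρ) (hcase : e / (1 - m ^ 2) < ρ) :
    tt m ((e / (1 + m) / ρ) ^ 2) ((e / (1 - m) / ρ) ^ 2) 0 ≤ P := by
  have hPm : 0 < 1 - m ^ 2 := by nlinarith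
  rw [tt_zero (by linarith) (by linarith) hρ, div_le_iff₀ (by positivity)]
  rw [div_lt_iff₀ hPm] at hcase
  rw [div_le_iff₀ hPm]
  have h2 : e ^ 2 ≤ (ρ * (1 - m ^ 2)) ^ 2 := by
    have := hcase.le
    gcongr
  nlinarith [mul_nonneg (mul_nonneg (sub_nonneg.2 hP1) (sq_nonneg ρ)) hPm.le]

theorem large_rho {m e P ρ : ℝ} (hm0 : 0 ≤ m) (he0 : 0 ≤ e) (hm1 : m < 1)
    (hP1 : 1 - m ^ 2 ≤ P) (hcase : e / (1 - m ^ 2) < ρ) :
    (∃ N, (∀ k, k < N → dd m e P ρ k ≤ 0) ∧ (∀ k, N ≤ k → 0 ≤ dd m e P ρ k)) ∨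
      (∀ k, dd m e P ρ k ≤ 0) := by
  have h1m : 0 < 1 - m := by linarith
  have h1p : 0 < 1 + m := by linarith
  have hPm : 0 < 1 - m ^ 2 := by nlinarith
  have hρ : 0 < ρ := lt_of_le_of_lt (by positivity) hcase
  have ht0 := tt_zero_le hm0 he0 hm1 hP1 hρ hcase
  have hconv := tt_conv h1m h1p (sq_nonneg (e / (1 + m) / ρ)) (sq_nonneg (e / (1 - m) / ρ))
  have hdt := dd_eq (m := m) (e := e) (P := P) hρ
  generalize tt m ((e / (1 + m) / ρ) ^ 2) ((e / (1 - m) / ρ) ^ 2) = t at *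
  generalize dd m e P ρ = d at *
  by_cases hex : ∃ n, P < t n
  · classical
    left
    obtain ⟨N, hN1, hN2⟩ : ∃ N, P < t N ∧ ∀ n, n < N → t n ≤ P :=
      ⟨Nat.find hex, Nat.find_spec hex, fun n hn => not_lt.1 (Nat.find_min hex hn)⟩
    have hN0 : N ≠ 0 := by
      rintro rfl; linarith
    obtain ⟨M, rfl⟩ : ∃ M, N = M + 1 := ⟨N - 1, by omega⟩
    refine ⟨M + 1, fun k hk => ?_, fun k hk => ?_⟩
    · rw [hdt]; exact mul_nonpos_of_nonneg_of_nonpos (by positivity) (by linarith [hN2 k hk])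
    · have := convex_seq_ge hconv (hN2 M (by omega)) hN1 k hk
      rw [hdt]; exact mul_nonneg (by positivity) (by linarith)
  · right
    intro k
    have : t k ≤ P := not_lt.1 fun h => hex ⟨k, h⟩
    rw [hdt]; exact mul_nonpos_of_nonneg_of_nonpos (by positivity) (by linarith)

theorem hasSum_dd_J {m e P ρ : ℝ} (hm0 : 0 ≤ m) (he0 : 0 ≤ e) (hem : e < 1 - m)
    (hρ0 : 0 ≤ ρ) (hρ1 : ρ < 1) : HasSum (fun k => wt k * dd m e P ρ k)
      (((1 + m) * Jf (e / (1 + m)) + (1 - m) * Jf (e / (1 - m))) / 2 - P * Jf ρ) := by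
  have h1m : 0 < 1 - m := by linarith
  have h1p : 0 < 1 + m := by linarith
  have ap : |e / (1 + m)| < 1 := by
    rw [abs_of_nonneg (by positivity), div_lt_one h1p]; linarith
  have am : |e / (1 - m)| < 1 := by
    rw [abs_of_nonneg (by positivity), div_lt_one h1m]; linarith
  have aρ : |ρ| < 1 := by rw [abs_of_nonneg hρ0]; exact hρ1
  have h := (((hasSum_Jf ap).mul_left (1 + m)).add ((hasSum_Jf am).mul_left (1 - m))).mul_left
    (1 / 2) |>.sub ((hasSum_Jf aρ).mul_left P)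
  have e1 : 1 / 2 * ((1 + m) * Jf (e / (1 + m)) + (1 - m) * Jf (e / (1 - m))) - P * Jf ρ =
    ((1 + m) * Jf (e / (1 + m)) + (1 - m) * Jf (e / (1 - m))) / 2 - P * Jf ρ := by ring
  rw [e1] at h
  refine h.congr_fun ?_ |> fun h => h
  intro k
  unfold dd
  ring

theorem hasSum_dd_q {m e P ρ : ℝ} (hm0 : 0 ≤ m) (he0 : 0 ≤ e) (hem : e < 1 - m)
    (hρ0 : 0 ≤ ρ) (hρ1 : ρ < 1) : HasSum (fun k : ℕ => (k : ℝ) * (wt k * dd m e P ρ k))
      ((((1 + m) * qf (e / (1 + m)) + (1 - m) * qf (e / (1 - m))) / 2 - P * qf ρ) / 2) := by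
  have h1m : 0 < 1 - m := by linarith
  have h1p : 0 < 1 + m := by linarith
  have ap : |e / (1 + m)| < 1 := by
    rw [abs_of_nonneg (by positivity), div_lt_one h1p]; linarith
  have am : |e / (1 - m)| < 1 := by
    rw [abs_of_nonneg (by positivity), div_lt_one h1m]; linarith
  have aρ : |ρ| < 1 := by rw [abs_of_nonneg hρ0]; exact hρ1
  have h := ((((hasSum_qf ap).mul_left (1 + m)).add ((hasSum_qf am).mul_left (1 - m))).mul_left
    (1 / 2) |>.sub ((hasSum_qf aρ).mul_left P)).mul_left (1 / 2)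
  have e1 : 1 / 2 * (1 / 2 * ((1 + m) * qf (e / (1 + m)) + (1 - m) * qf (e / (1 - m))) - P * qf ρ) =
    (((1 + m) * qf (e / (1 + m)) + (1 - m) * qf (e / (1 - m))) / 2 - P * qf ρ) / 2 := by ring
  rw [e1] at h
  refine h.congr_fun ?_ |> fun h => h
  intro k
  unfold dd
  ring

/-- Inequality (D). -/
theorem ineqD {m e P ρ : ℝ} (hm0 : 0 ≤ m) (he0 : 0 ≤ e) (hem : e < 1 - m)
    (hP1 : 1 - m ^ 2 ≤ P) (hP2 : P ≤ (1 - m ^ 2) * (1 + 3 * m ^ 2)) (hρ0 : 0 ≤ ρ) (hρ1 : ρ < 1)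
    (hJ : P * Jf ρ ≤ ((1 + m) * Jf (e / (1 + m)) + (1 - m) * Jf (e / (1 - m))) / 2) :
    P * qf ρ ≤ ((1 + m) * qf (e / (1 + m)) + (1 - m) * qf (e / (1 - m))) / 2 := by
  have hm1 : m < 1 := by linarith
  have hPm : 0 < 1 - m ^ 2 := by nlinarith
  have hP0 : 0 < P := lt_of_lt_of_le hPm hP1
  have sJ := hasSum_dd_J (P := P) hm0 he0 hem hρ0 hρ1
  have sQ := hasSum_dd_q (P := P) hm0 he0 hem hρ0 hρ1
  suffices h : 0 ≤ (((1 + m) * qf (e / (1 + m)) + (1 - m) * qf (e / (1 - m))) / 2 -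
      P * qf ρ) / 2 by linarith
  rcases le_or_gt ρ (e / (1 - m ^ 2)) with hcase | hcase
  · refine sQ.nonneg fun k => ?_
    rcases Nat.eq_zero_or_pos k with hk | hk
    · subst hk; simp
    · exact mul_nonneg (by positivity) (mul_nonneg (wt_pos k).le
        (small_rho hm0 he0 hm1 hP0 hP2 hρ0 hcase k hk))
  · refine sum_sign sJ sQ (by linarith) ?_
    rcases large_rho hm0 he0 hm1 hP1 hcase with ⟨N, h1, h2⟩ | h
    · exact Or.inl ⟨N, fun k hk => mul_nonpos_of_nonneg_of_nonpos (wt_pos k).le (h1 k hk),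
        fun k hk => mul_nonneg (wt_pos k).le (h2 k hk)⟩
    · exact Or.inr fun k => mul_nonpos_of_nonneg_of_nonpos (wt_pos k).le (h k)

/-- positivity of `q` -/
theorem qf_nonneg {r : ℝ} (h0 : 0 ≤ r) (h1 : r < 1) : 0 ≤ qf r := by
  have ar : |r| < 1 := by rw [abs_of_nonneg h0]; exact h1
  refine (hasSum_qf ar).nonneg fun k => ?_
  have := wt_pos k
  positivity

end CK.D24
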