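import Vale.Agent.H24.CK.D
import Vale.Agent.H7.CK.F2
import Vale.Agent.H12.CK.ODE

/-!
# P322: inequality (D) in terms of `H`, `F2`, `P2`, `cc`
-/

open Real

namespace CK

theorem D24.H_log {t : ℝ} (h0 : -1 < t) (h1 : t < 1) :
    H t = log 2 - ((1 + t) * log (1 + t) + (1 - t) * log (1 - t)) / 2 := by
  have h := J_eq (abs_lt.2 ⟨h0, h1⟩)
  have e : log (1 - t ^ 2) = log (1 + t) + log (1 - t) := by
    rw [← log_mul (by linarith) (by linarith)]; ring_nf
  have hA : A t = (log (1 + t) - log (1 - t)) / 2 := rfl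
  have hJ : J t = log 2 - H t := rfl
  rw [e, hA, hJ] at h
  linarith

theorem D24.Jf_eq {t : ℝ} (h : |t| < 1) : D24.Jf t = J t := by
  rw [J_eq h]; rfl

theorem D24.sumJ {m e : ℝ} (hm : 0 ≤ m) (he : 0 ≤ e) (h : m + e < 1) :
    (1 + m) * D24.Jf (e / (1 + m)) + (1 - m) * D24.Jf (e / (1 - m)) =
      2 * H m - H (m + e) - H (m - e) := by
  have h1m : 0 < 1 - m := by linarith
  have h1p : 0 < 1 + m := by linarith
  rw [D24.H_log (by linarith) (by linarith), D24.H_log (by linarith) (by linarith),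
    D24.H_log (by linarith) (by linarith)]
  unfold D24.Jf A
  have e1 : 1 + e / (1 + m) = (1 + m + e) / (1 + m) := by field_simp
  have e2 : 1 - e / (1 + m) = (1 + m - e) / (1 + m) := by field_simp
  have e3 : 1 + e / (1 - m) = (1 - m + e) / (1 - m) := by field_simp
  have e4 : 1 - e / (1 - m) = (1 - m - e) / (1 - m) := by field_simp
  have e5 : 1 - (e / (1 + m)) ^ 2 = (1 + e / (1 + m)) * (1 - e / (1 + m)) := by ring
  have e6 : 1 - (e / (1 - m)) ^ 2 = (1 + e / (1 - m)) * (1 - e / (1 - m)) := by ring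
  rw [e5, e6, e1, e2, e3, e4]
  rw [log_mul (by positivity) (div_pos (by linarith) h1p).ne',
    log_mul (by positivity) (div_pos (by linarith) h1m).ne',
    log_div (by positivity) (by positivity), log_div (by linarith) (by positivity),
    log_div (by positivity) (by positivity), log_div (by linarith) (by positivity)]
  have f1 : 1 + (m + e) = 1 + m + e := by ring
  have f2 : 1 - (m + e) = 1 - m - e := by ring
  have f3 : 1 + (m - e) = 1 + m - e := by ring
  have f4 : 1 - (m - e) = 1 - m + e := by ring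
  rw [f1, f2, f3, f4]
  have g1 : (1 + m) * (e / (1 + m)) = e := by field_simp
  have g2 : (1 - m) * (e / (1 - m)) = e := by field_simp
  generalize log (1 + m + e) = a
  generalize log (1 + m - e) = b
  generalize log (1 - m + e) = c
  generalize log (1 - m - e) = d
  generalize log (1 + m) = u
  generalize log (1 - m) = v
  generalize e / (1 + m) = r at *
  generalize e / (1 - m) = s at *
  have : (1 + m) * (r * ((a - u - (b - u)) / 2) + (a - u + (b - u)) / 2) +
      (1 - m) * (s * ((c - v - (d - v)) / 2) + (c - v + (d - v)) / 2) =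
      ((1 + m) * r) * ((a - b) / 2) + (1 + m) * ((a + b - 2 * u) / 2) +
      (((1 - m) * s) * ((c - d) / 2) + (1 - m) * ((c + d - 2 * v) / 2)) := by ring
  rw [this, g1, g2]
  ring

theorem D24.sumA {m e : ℝ} (hm : 0 ≤ m) (he : 0 ≤ e) (h : m + e < 1) :
    (1 + m) * (e / (1 + m) * A (e / (1 + m))) + (1 - m) * (e / (1 - m) * A (e / (1 - m))) =
      2 * cc (m + e) (m - e) := by
  have h1m : 0 < 1 - m := by linarith
  have h1p : 0 < 1 + m := by linarith
  have e1 : 1 + e / (1 + m) = (1 + m + e) / (1 + m) := by field_simp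
  have e2 : 1 - e / (1 + m) = (1 + m - e) / (1 + m) := by field_simp
  have e3 : 1 + e / (1 - m) = (1 - m + e) / (1 - m) := by field_simp
  have e4 : 1 - e / (1 - m) = (1 - m - e) / (1 - m) := by field_simp
  unfold cc A
  rw [e1, e2, e3, e4, log_div (by positivity) (by positivity), log_div (by linarith) (by positivity),
    log_div (by positivity) (by positivity), log_div (by linarith) (by positivity)]
  have f1 : 1 + (m + e) = 1 + m + e := by ring
  have f2 : 1 - (m + e) = 1 - m - e := by ring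
  have f3 : 1 + (m - e) = 1 + m - e := by ring
  have f4 : 1 - (m - e) = 1 - m + e := by ring
  rw [f1, f2, f3, f4]
  have g1 : (1 + m) * (e / (1 + m)) = e := by field_simp
  have g2 : (1 - m) * (e / (1 - m)) = e := by field_simp
  rw [← mul_assoc, ← mul_assoc, g1, g2]
  ring

/-- **Inequality (D)** in terms of `F2` (unfolded form). -/
theorem D_F2 {m e : ℝ} (hm : 0 ≤ m) (he : 0 ≤ e) (h : m + e < 1) :
    2 * H m - H (m + e) - H (m - e) + F2 (P2 m) ((H (m + e) + H (m - e)) / 2) ≤
      cc (m + e) (m - e) := by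
  have h1m : 0 < 1 - m := by linarith
  have h1p : 0 < 1 + m := by linarith
  obtain ⟨L1, L2⟩ := Ode.log2_bounds
  have hP0 : 0 < P2 m := Ode.P2_pos' (by rw [abs_of_nonneg hm]; linarith)
  have hH1 : 0 < H (m + e) := H_pos ⟨by linarith, h⟩
  have hH2 : 0 < H (m - e) := H_pos ⟨by linarith, by linarith⟩
  have hx : 0 < (H (m + e) + H (m - e)) / 2 := by linarith
  have hJs := D24.sumJ hm he h
  have hAs := D24.sumA hm he h
  -- `cc - (2H - H - H) = E q`
  have hq : ((1 + m) * D24.qf (e / (1 + m)) + (1 - m) * D24.qf (e / (1 - m))) / 2 =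
      cc (m + e) (m - e) - (2 * H m - H (m + e) - H (m - e)) := by
    rw [← hJs]
    have := hAs
    unfold D24.qf D24.Jf
    linarith
  suffices hs : F2 (P2 m) ((H (m + e) + H (m - e)) / 2) ≤
      ((1 + m) * D24.qf (e / (1 + m)) + (1 - m) * D24.qf (e / (1 - m))) / 2 by
    rw [hq] at hs; linarith
  have hq0 : 0 ≤ ((1 + m) * D24.qf (e / (1 + m)) + (1 - m) * D24.qf (e / (1 - m))) / 2 := by
    have h1 := D24.qf_nonneg (r := e / (1 + m)) (by positivity) (by rw [div_lt_one h1p]; linarith)
    have h2 := D24.qf_nonneg (r := e / (1 - m)) (by positivity) (by rw [div_lt_one h1m]; linarith)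
    positivity
  rcases le_or_gt (P2 m * log 2) ((H (m + e) + H (m - e)) / 2) with hc | hc
  · rw [F2_of_ge hP0 hc]; exact hq0
  · -- `x = P2 m * H ρ`
    set x := (H (m + e) + H (m - e)) / 2 with hxdef
    have hy0 : 0 < x / P2 m := by positivity
    have hy1 : x / P2 m ≤ log 2 := by rw [div_le_iff₀ hP0]; linarith
    set ρ := tanh (winv (x / P2 m)) with hρ
    have hw0 : 0 ≤ winv (x / P2 m) := winv_nonneg _
    have hρ0 : 0 ≤ ρ := by
      rw [hρ, tanh_eq_sinh_div_cosh]
      exact div_nonneg (sinh_nonneg_iff.2 hw0) (cosh_pos _).le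
    have hρ1 : ρ < 1 := (tanh_mem _).2
    have hHρ : H ρ = x / P2 m := by rw [hρ, H_tanh, eta_winv hy0 hy1]
    have hF : F2 (P2 m) x = P2 m * D24.qf ρ := by
      unfold F2
      rw [← hHρ, f2_H hρ0 hρ1, J_eq (by rw [abs_of_nonneg hρ0]; exact hρ1)]
      unfold D24.qf
      ring
    rw [hF]
    refine D24.ineqD hm he (by linarith) ?_ ?_ hρ0 hρ1 ?_
    · have h1 : 0 ≤ 1 - 1 / (2 * log 2) := by
        rw [sub_nonneg, div_le_one (by linarith)]; linarith
      have h2 : 0 ≤ 1 - m ^ 2 := by nlinarith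
      unfold P2 c0
      nlinarith [mul_nonneg h2 (mul_nonneg h1 (sq_nonneg m))]
    · have h1 : 1 - 1 / (2 * log 2) ≤ 3 := by
        have : 0 < 1 / (2 * log 2) := by positivity
        linarith
      have h2 : 0 ≤ 1 - m ^ 2 := by nlinarith
      unfold P2 c0
      refine mul_le_mul_of_nonneg_left ?_ h2
      nlinarith [sq_nonneg m]
    · rw [hJs, D24.Jf_eq (by rw [abs_of_nonneg hρ0]; exact hρ1)]
      have hJρ : J ρ = log 2 - H ρ := rfl
      have hPH := Ode.P2_le_H (m := m) (by rw [abs_of_nonneg hm]; linarith)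
      rw [hJρ, hHρ]
      have : P2 m * (log 2 - x / P2 m) = log 2 * P2 m - x := by
        field_simp
      rw [this]
      linarith

/-- **Inequality (D)**: `Gm m e (Ht m e) ≤ cc (m+e) (m-e)` in unfolded form. -/
theorem D_full {m e : ℝ} (hm : 0 ≤ m) (he : 0 ≤ e) (h : m + e < 1) :
    2 * H m - H (m + e) - H (m - e) + F2 (P2 m) ((H (m + e) + H (m - e)) / 2) -
      F2 ((P2 (m + e) + P2 (m - e)) / 2) ((H (m + e) + H (m - e)) / 2) ≤ cc (m + e) (m - e) := by
  have h1 : 0 < P2 (m + e) := Ode.P2_pos' (by rw [abs_of_nonneg (by linarith)]; linarith)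
  have h2 : 0 < P2 (m - e) := Ode.P2_pos' (by rw [abs_lt]; constructor <;> linarith)
  have h3 := Ode.P2_le_H (m := m + e) (by rw [abs_of_nonneg (by linarith)]; linarith)
  have h4 := Ode.P2_le_H (m := m - e) (by rw [abs_le]; constructor <;> linarith)
  rw [F2_of_ge (P := (P2 (m + e) + P2 (m - e)) / 2) (by linarith) (by linarith), sub_zero]
  exact D_F2 hm he h

/-- **Inequality (D)**. -/
theorem D_Gm {m e : ℝ} (hm : 0 ≤ m) (he : 0 ≤ e) (h : m + e < 1) :
    Gm m e (Ht m e) ≤ cc (m + e) (m - e) := by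
  unfold Gm Ht
  exact D_full hm he h

end CK
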